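import Crest.Agent.N067.K.Lay
import Crest.Agent.N067.A.Modica

/-! # Row 67, block L (helper53): `MIData` passes to pointwise limits -/

set_option autoImplicit false

open MeasureTheory Laplacian InnerProductSpace Topology Filter Set Metric
open scoped RealInnerProductSpace ContDiff Gradient ENNReal

namespace Crest.Agent.N067.L

open Crest.Agent.R077

noncomputable section

variable {n : ℕ}

theorem lint_Om_lt_top (hn : n < 20) (c : EE n) {R : ℝ} (hR : 1 ≤ R) (A : ℝ) :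
    ∫⁻ x, ENNReal.ofReal (A * Om c R x) ≠ ⊤ := by
  have h := ((integrable_one_add_norm (E := EE n) (μ := volume) (r := 20) (by
    rw [finrank_euclideanSpace_fin]; exact_mod_cast hn)).comp_sub_right c).const_mul (|A| * R ^ 20)
  refine ne_top_of_le_ne_top h.lintegral_lt_top.ne (lintegral_mono fun x => ?_)
  refine ENNReal.ofReal_le_ofReal ?_
  have R0 : 0 < R := by linarith
  have h0 := norm_nonneg (x - c)
  have h1 : 1 + ‖x - c‖ ≤ R * (1 + ‖x - c‖ / R) := by
    rw [mul_add, mul_div_cancel₀ _ R0.ne']; linarith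
  have h2 : Om c R x ≤ R ^ 20 * (1 + ‖x - c‖) ^ (-(20 : ℝ)) := by
    rw [Om, Real.rpow_neg (by positivity), show (20 : ℝ) = (20 : ℕ) by norm_num, Real.rpow_natCast,
      ← div_eq_mul_inv, le_div_iff₀ (by positivity), inv_mul_le_iff₀ (by positivity), mul_comm,
      ← mul_pow]
    exact pow_le_pow_left₀ (by positivity) h1 20
  rw [mul_assoc]
  exact mul_le_mul (le_abs_self A) h2 (by unfold Om; positivity) (abs_nonneg A)

/-- the data at a finite truncation level; `z` is the price of the truncation -/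
structure Pre (v : EE n → ℝ) (γ s P θ b C0 κ1 c C rs f0 C1 z : ℝ) (G J : EE n → ℝ) : Prop where
  mG : Measurable G
  mJ : Measurable J
  nG : ∀ x, 0 ≤ G x
  nJ : ∀ x, 0 ≤ J x
  cr1 : ∀ x, G x ≤ C1 * psi v x ^ b
  cr2 : ∀ x, G x ≤ C1 * (J x ^ θ + z) * (psi v x ^ b) ^ (1 - θ)
  low : ∀ κ, C0 / f0 ≤ κ → κ ≤ κ1 → ∀ x ∈ Sh v, ¬ Flat v κ x → c * (f0 * κ) ^ (2 * s) ≤ G x
  mi : ∀ (I : Finset (Fin n)) (x0 : EE n) (r0 R : ℝ), 7 ≤ I.card → rs ≤ r0 → r0 ≤ R → f0 ≤ R →
    ∫⁻ x in ball x0 R, ENNReal.ofReal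
        (G x * rh I x0 r0 x ^ (-(2 * γ) - 2) + J x * rh I x0 r0 x ^ (-(2 * γ))) ≤
      ENNReal.ofReal C * ((∫⁻ x, ENNReal.ofReal
          (R ^ (-2 : ℝ) * (G x * rh I x0 r0 x ^ (-(2 * γ)) * Om x0 R x))) +
        ∫⁻ x, ENNReal.ofReal (min (f0 ^ (-2 : ℝ)) (f0 ^ P * rh I x0 r0 x ^ (-P - 2)) *
          (psi v x ^ b * rh I x0 r0 x ^ (-(2 * γ)) * Om x0 R x)))

/-- **the limit** -/
theorem mi_of_lim {v : EE n → ℝ} {γ s P θ b C0 κ1 c C rs f0 C1 : ℝ} {z : ℕ → ℝ}
    {G J : ℕ → EE n → ℝ} {G' J' : EE n → ℝ} (hn : n < 20) (hv : Sol v) (hγ : 0 ≤ γ) (hθ : 0 ≤ θ)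
    (hb : 0 ≤ b) (hrs : 1 ≤ rs) (h : ∀ m, Pre v γ s P θ b C0 κ1 c C rs f0 C1 (z m) (G m) (J m))
    (hz : Tendsto z atTop (𝓝 0)) (hG : ∀ x, Tendsto (fun m => G m x) atTop (𝓝 (G' x)))
    (hJ : ∀ x, Tendsto (fun m => J m x) atTop (𝓝 (J' x))) :
    MIData v γ s P θ b C0 κ1 c C rs f0 G' J' := by
  have mG : Measurable G' :=
    measurable_of_tendsto_metrizable (fun m => (h m).mG) (tendsto_pi_nhds.2 hG)
  have mJ : Measurable J' :=
    measurable_of_tendsto_metrizable (fun m => (h m).mJ) (tendsto_pi_nhds.2 hJ)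
  refine ⟨mG, mJ, fun x => ge_of_tendsto' (hG x) fun m => (h m).nG x,
    fun x => ge_of_tendsto' (hJ x) fun m => (h m).nJ x,
    ⟨C1, fun x => ⟨le_of_tendsto' (hG x) fun m => (h m).cr1 x, ?_⟩⟩,
    fun κ h1 h2 x hx hf => ge_of_tendsto' (hG x) fun m => (h m).low κ h1 h2 x hx hf,
    fun I x0 r0 R hI h1 h2 h3 => ?_⟩
  · have := ((((hJ x).rpow_const (Or.inr hθ)).add hz).const_mul C1).mul_const
      ((psi v x ^ b) ^ (1 - θ))
    rw [add_zero] at this
    exact le_of_tendsto_of_tendsto' (hG x) this fun m => (h m).cr2 x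
  have r1 : 1 ≤ r0 := hrs.trans h1
  have R1 : 1 ≤ R := r1.trans h2
  have mr : Measurable (rh I x0 r0) := by unfold rh; fun_prop
  have mO : Measurable (Om x0 R) := by unfold Om; fun_prop
  have t1 := tendsto_lintegral_of_dominated_convergence (μ := volume)
    (F := fun m x => ENNReal.ofReal
      (R ^ (-2 : ℝ) * (G m x * rh I x0 r0 x ^ (-(2 * γ)) * Om x0 R x)))
    (f := fun x => ENNReal.ofReal (R ^ (-2 : ℝ) * (G' x * rh I x0 r0 x ^ (-(2 * γ)) * Om x0 R x)))
    (fun x => ENNReal.ofReal (|C1| * Om x0 R x))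
    (fun m => by have := (h m).mG; fun_prop)
    (fun m => Eventually.of_forall fun x => ENNReal.ofReal_le_ofReal (by
      have a1 : R ^ (-2 : ℝ) ≤ 1 := Real.rpow_le_one_of_one_le_of_nonpos R1 (by norm_num)
      have a2 : 1 ≤ rh I x0 r0 x := Real.one_le_sqrt.2 (le_add_of_le_of_nonneg (one_le_pow₀ r1)
        (Finset.sum_nonneg fun _ _ => sq_nonneg _))
      have a3 : rh I x0 r0 x ^ (-(2 * γ)) ≤ 1 :=
        Real.rpow_le_one_of_one_le_of_nonpos a2 (by linarith)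
      have a4 : G m x ≤ |C1| := ((h m).cr1 x).trans ((mul_le_mul_of_nonneg_right (le_abs_self C1)
        (Real.rpow_nonneg (hv.psi_pos x).le b)).trans (mul_le_of_le_one_right (abs_nonneg _)
          (Real.rpow_le_one (hv.psi_pos x).le (by unfold psi; nlinarith [sq_nonneg (v x)]) hb)))
      have a5 : 0 ≤ Om x0 R x := by unfold Om; positivity
      have a6 := (h m).nG x
      exact (mul_le_of_le_one_left (by positivity) a1).trans (mul_le_mul_of_nonneg_right
        ((mul_le_of_le_one_right a6 a3).trans a4) a5)))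
    (lint_Om_lt_top hn x0 R1 _)
    (Eventually.of_forall fun x => ENNReal.tendsto_ofReal
      ((((hG x).mul_const _).mul_const _).const_mul _))
  have t2 := ENNReal.Tendsto.const_mul (a := ENNReal.ofReal C) (t1.add_const
    (∫⁻ x, ENNReal.ofReal (min (f0 ^ (-2 : ℝ)) (f0 ^ P * rh I x0 r0 x ^ (-P - 2)) *
      (psi v x ^ b * rh I x0 r0 x ^ (-(2 * γ)) * Om x0 R x)))) (Or.inr ENNReal.ofReal_ne_top)
  rw [← t2.liminf_eq]
  refine le_trans ?_ (liminf_le_liminf (Eventually.of_forall fun m => (h m).mi I x0 r0 R hI h1 h2 h3))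
  refine le_trans (lintegral_mono fun x => ?_) (lintegral_liminf_le fun m => by
    have := (h m).mG; have := (h m).mJ; fun_prop)
  exact (ENNReal.tendsto_ofReal (((hG x).mul_const _).add ((hJ x).mul_const _))).liminf_eq.ge

end

end Crest.Agent.N067.L
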